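import Crest.Agent.S0109.CorePL
import Crest.Agent.S0109.CoreAlg
import Crest.Agent.S0109.CoreG
import Crest.Agent.S0109.CoreD

/-!
Row 82 (S0109): aggregator for module Core (no declarations here; see the imported files, one owner each).
-/
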