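import Mathlib
import Crest.Agent.S0109.GN1D

/-!
# Gagliardo–Nirenberg-type inequality for differences of convex functions (row 82, module GN)

`gn_fund`, `gn_1d` : one-dimensional statements, PROVED in `Crest/Agent/S0109/GN1D.lean` (helper3),
imported here.  The `d`-dimensional statement is `gn_main_proof` in `Crest/Agent/S0109/GNd.lean`
(helper69), which imports this file.  This file holds no declarations of its own.
-/
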